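import Vale.Agent.P258.MathlibUsed

/-!
Wirtinger data of link diagrams, preferred longitudes, and the fundamental group of an integral
surgery on a satellite knot.
-/

namespace Vale.Agent.P258

/-- An oriented link diagram, recorded by its Wirtinger data.  The arcs are numbered by `Fin n`.
The arc `a` ends at a crossing of sign `sgn a`, where the strand passes under the arc `above a`
and continues as the arc `next a`.  The link components are the cycles of `next`. -/
structure Diagram where
  n : ℕ
  next : Fin n → Fin n
  above : Fin n → Fin n
  sgn : Fin n → ℤˣ

namespace Diagram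

variable (D : Diagram)

/-- The Wirtinger relator of the crossing at the end of the arc `a`, which says that
`x_{next a} = x_k ^ (-s) * x_a * x_k ^ s`, where `k = above a` and `s = sgn a`. -/
def wirtinger (a : Fin D.n) : FreeGroup (Fin D.n) :=
  FreeGroup.of (D.above a) ^ (-(D.sgn a : ℤ)) * FreeGroup.of a *
    FreeGroup.of (D.above a) ^ (D.sgn a : ℤ) * (FreeGroup.of (D.next a))⁻¹

/-- `a` and `b` are arcs of the same component. -/
def SameComponent (a b : Fin D.n) : Prop := ∃ i : ℕ, D.next^[i] a = b

/-- The diagram has at most one component. -/
def IsKnot : Prop := ∀ a b : Fin D.n, D.SameComponent a b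

/-- The arcs met when travelling once along the component of `a`, starting with `a`. -/
noncomputable def walk (a : Fin D.n) : List (Fin D.n) :=
  (List.range (Function.minimalPeriod D.next a)).map fun i => D.next^[i] a

open Classical in
/-- The sum of the signs of the crossings of the component of `a` with itself. -/
noncomputable def selfWrithe (a : Fin D.n) : ℤ :=
  (((D.walk a).filter fun b => D.SameComponent a (D.above b)).map fun b => (D.sgn b : ℤ)).sum

/-- The preferred longitude of the component of `a`, based at the arc `a`, whose meridian is
`x_a`: the product of the `x_{above b} ^ {sgn b}` along the component, corrected by a power of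
`x_a` so that its linking number with the component is zero. -/
noncomputable def longitude (a : Fin D.n) : FreeGroup (Fin D.n) :=
  ((D.walk a).map fun b => FreeGroup.of (D.above b) ^ (D.sgn b : ℤ)).prod *
    FreeGroup.of a ^ (-(D.selfWrithe a))

/-- The word `x_a ^ p * λ_a`, the curve of slope `p` on the boundary torus of the component
of `a`. -/
noncomputable def slopeWord (a : Fin D.n) (p : ℤ) : FreeGroup (Fin D.n) :=
  FreeGroup.of a ^ p * D.longitude a

end Diagram

/-- A word in the arcs of `P`, as a word in the arcs of `P` and of `J`. -/
def wordP (P J : Diagram) (w : FreeGroup (Fin P.n)) : FreeGroup (Fin P.n ⊕ Fin J.n) :=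
  FreeGroup.map Sum.inl w

/-- A word in the arcs of `J`, as a word in the arcs of `P` and of `J`. -/
def wordJ (P J : Diagram) (w : FreeGroup (Fin J.n)) : FreeGroup (Fin P.n ⊕ Fin J.n) :=
  FreeGroup.map Sum.inr w

/-- Relators on the arcs of `P` and of `J` for the fundamental group of an integral surgery on a
satellite knot.  `P` is a diagram of a link `K ∪ E` with `E` an unknotted component, `k` is an arc
of `K`, `e` is an arc of `E`, `J` is a diagram of the companion knot and `j` is an arc of it.
The exteriors of `K ∪ E` and `J` are glued along the boundary torus of `E`, with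
`longitude E = meridian J` and `meridian E = (meridian J) ^ f * longitude J`
(the `f`-twisted satellite), and the surgery of slope `p` is done on the satellite of `K`. -/
def satelliteRelators (P J : Diagram) (k e : Fin P.n) (j : Fin J.n) (f p : ℤ) :
    Set (FreeGroup (Fin P.n ⊕ Fin J.n)) :=
  Set.range (fun a => wordP P J (P.wirtinger a)) ∪
  Set.range (fun b => wordJ P J (J.wirtinger b)) ∪
  {wordP P J (P.longitude e) * (wordJ P J (FreeGroup.of j))⁻¹,
   wordP P J (FreeGroup.of e) * (wordJ P J (J.slopeWord j f))⁻¹,
   wordP P J (P.slopeWord k p)}

/-- The pattern: a diagram with 21 crossings of a link `K ∪ E`, in which `K` has the arcs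
`0, ..., 18` and `E` the arcs `19, 20`. -/
def pattern : Diagram where
  n := 21
  next a := Fin.ofNat 21 (if a.val = 18 then 0 else if a.val = 20 then 19 else a.val + 1)
  above a := Fin.ofNat 21
    ([8, 17, 14, 1, 15, 20, 15, 1, 14, 17, 19, 8, 18, 3, 10, 11, 14, 3, 12, 6, 10].getD a.val 0)
  sgn a := if a.val ∈ [1, 3, 5, 6, 8, 11, 12, 14, 16, 17, 18, 19] then -1 else 1

/-- An arc of the component `K` of the pattern. -/
def patternK : Fin pattern.n := Fin.ofNat 21 0

/-- An arc of the component `E` of the pattern. -/
def patternE : Fin pattern.n := Fin.ofNat 21 19

end Vale.Agent.P258
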